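import Crest.Agent.Helper75.Thorp.Gam

/-!
# Thorp shuffle (S0222), GAP, Lemma B — Finset-relative form

`lemmaB_gam_finset`: the bound of `Crest.Agent.Helper75.Thorp.lemmaB_gam` for a sum over the
subsets `Z` of a finset `W` (instead of all finsets of a fintype), with `qq Z` indexed by the
REMOVED set `Z` (so `qq` is antitone).
-/

set_option autoImplicit false

namespace Crest.Agent.Helper75.Shuffle

open Finset Crest.Agent.Helper75.Thorp

theorem sum_powerset_eq_sum_univ_subtype {C : Type*} [DecidableEq C] (W : Finset C)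
    (F : Finset C → ℝ) :
    ∑ Z : Finset {w // w ∈ W}, F (Z.map (Function.Embedding.subtype _))
      = ∑ Z ∈ W.powerset, F Z := by
  classical
  refine Finset.sum_bij' (fun Z _ => Z.map (Function.Embedding.subtype _))
    (fun Z' _ => Z'.subtype (· ∈ W)) ?_ ?_ ?_ ?_ ?_
  · intro Z _
    rw [Finset.mem_powerset]
    intro x hx
    exact Finset.property_of_mem_map_subtype Z hx
  · intro Z' _
    exact Finset.mem_univ _
  · intro Z _
    ext ⟨x, hx⟩
    simp [Finset.mem_subtype, Finset.mem_map, hx]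
  · intro Z' hZ'
    rw [Finset.mem_powerset] at hZ'
    exact Finset.subtype_map_of_mem (fun x hx => hZ' hx)
  · intro Z _
    rfl

/-- **Lemma B, Finset-relative form.** -/
theorem lemmaB_gam_finset {C : Type*} [DecidableEq C] (W : Finset C) (m : ℕ)
    (hk2 : 2 ≤ W.card) (hkm : W.card ≤ m) (qq : Finset C → ℝ) (B : ℝ)
    (h0 : ∀ Z, Z ⊆ W → 0 ≤ qq Z) (hB : ∀ Z, Z ⊆ W → qq Z ≤ B)
    (hanti : ∀ Z Z', Z ⊆ Z' → Z' ⊆ W → qq Z' ≤ qq Z) :
    |(∑ Z ∈ W.powerset, (-1 : ℝ) ^ Z.card * gam m W.card Z.card * qq Z) / (2 : ℝ) ^ W.card|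
      ≤ B / 4 := by
  classical
  have hcard : Fintype.card {w // w ∈ W} = W.card := Fintype.card_coe W
  have hsub : ∀ Y : Finset {w // w ∈ W}, Y.map (Function.Embedding.subtype _) ⊆ W := by
    intro Y x hx
    exact Finset.property_of_mem_map_subtype Y hx
  have key := lemmaB_gam (W := {w // w ∈ W}) m (by rw [hcard]; exact hk2)
    (by rw [hcard]; exact hkm)
    (fun Y => qq (Yᶜ.map (Function.Embedding.subtype _))) B
    (fun Y => h0 _ (hsub _)) (fun Y => hB _ (hsub _))
    (fun Y Y' hYY' => hanti _ _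
      (Finset.map_subset_map.mpr (Finset.compl_subset_compl.mpr hYY')) (hsub _))
  rw [hcard] at key
  have hsum : ∑ Z : Finset {w // w ∈ W}, (-1 : ℝ) ^ Z.card * gam m W.card Z.card *
        qq (Zᶜᶜ.map (Function.Embedding.subtype _))
      = ∑ Z ∈ W.powerset, (-1 : ℝ) ^ Z.card * gam m W.card Z.card * qq Z := by
    rw [← sum_powerset_eq_sum_univ_subtype W
      (fun Z => (-1 : ℝ) ^ Z.card * gam m W.card Z.card * qq Z)]
    refine Finset.sum_congr rfl (fun Z _ => ?_)
    rw [compl_compl, Finset.card_map]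
  rw [hsum] at key
  exact key

end Crest.Agent.Helper75.Shuffle
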