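import Crest.Agent.Helper82.Shuffle.SymDefs
import Crest.Agent.Helper75.Shuffle.GamFinset

/-!
# Thorp shuffle (S0222), GAP, Lemma A — leaf (Q): Lemma B for the symbol operator `theta`

`qStmt : QStmt ι` (shape of `Crest/Agent/Helper82/Shuffle/SymDefs.lean`).

With `G Z y = ∑ y' ∈ relab Z y, β y'` (sum of `β` over the columns of the cards of `Z`):
* `∑ y, β y * G Z y = M^(-|Z|) ∑ y, G Z y ^ 2`;
* `qq Z = ∑ y, G Z y ^ 2 / (M^|Z| * (M-k+|Z|)_|Z|)` is antitone in `Z ⊆ W`, `qq ∅ = ∑ β^2`;
* `∑ y, β y * theta W β y = 2^(-k) ∑_{Z ⊆ W} (-1)^|Z| γ_|Z| qq Z`, and Lemma B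
  (`lemmaB_gam_finset`) gives the bound `1/4`.
-/

set_option autoImplicit false

namespace Crest.Agent.Helper75.Shuffle

open Finset Crest.Agent.Helper13.Gap Crest.Agent.Helper82.Shuffle Crest.Agent.Helper75.Thorp

variable {ι : Type*} [Fintype ι] [DecidableEq ι]

theorem mem_relab {Z : Finset (ι × Bool)} {y y' : ι × Bool → ι} :
    y' ∈ relab Z y ↔ ∀ w, w ∉ Z → y' w = y w := by
  simp [relab]

theorem mem_relab_comm {Z : Finset (ι × Bool)} {y y' : ι × Bool → ι} :
    y' ∈ relab Z y ↔ y ∈ relab Z y' := by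
  simp only [mem_relab]
  constructor <;> intro h w hw <;> exact (h w hw).symm

theorem relab_eq_of_mem {Z : Finset (ι × Bool)} {y y' : ι × Bool → ι} (h : y' ∈ relab Z y) :
    relab Z y' = relab Z y := by
  ext y''
  simp only [mem_relab] at *
  constructor
  · intro h2 w hw; rw [h2 w hw, h w hw]
  · intro h2 w hw; rw [h2 w hw, h w hw]

theorem relab_empty (y : ι × Bool → ι) : relab (∅ : Finset (ι × Bool)) y = {y} := by
  ext y'
  simp only [mem_relab, Finset.notMem_empty, not_false_eq_true, forall_const,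
    Finset.mem_singleton]
  exact ⟨fun h => funext h, fun h w => by rw [h]⟩

theorem relab_update {Z : Finset (ι × Bool)} {a : ι × Bool} (ha : a ∉ Z) (y : ι × Bool → ι)
    (v : ι) :
    relab Z (Function.update y a v) = (relab (insert a Z) y).filter (fun y' => y' a = v) := by
  ext y'
  simp only [mem_relab, Finset.mem_filter, Finset.mem_insert, not_or]
  constructor
  · intro h
    refine ⟨fun w hw => ?_, ?_⟩
    · rw [h w hw.2, Function.update_of_ne hw.1]
    · rw [h a ha, Function.update_self]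
  · rintro ⟨h1, h2⟩ w hw
    by_cases hwa : w = a
    · subst hwa; rw [h2, Function.update_self]
    · rw [h1 w ⟨hwa, hw⟩, Function.update_of_ne hwa]

theorem sum_relab_insert {Z : Finset (ι × Bool)} {a : ι × Bool} (ha : a ∉ Z)
    (f : (ι × Bool → ι) → ℝ) (y : ι × Bool → ι) :
    ∑ y' ∈ relab (insert a Z) y, f y'
      = ∑ v : ι, ∑ y' ∈ relab Z (Function.update y a v), f y' := by
  simp_rw [relab_update ha]
  exact (Finset.sum_fiberwise _ _ _).symm

theorem card_relab (Z : Finset (ι × Bool)) :
    ∀ y : ι × Bool → ι, (relab Z y).card = Fintype.card ι ^ Z.card := by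
  classical
  induction Z using Finset.induction_on with
  | empty => intro y; simp [relab_empty]
  | insert a Z ha ih =>
    intro y
    have h1 : (relab (insert a Z) y).card
        = ∑ v : ι, ((relab (insert a Z) y).filter (fun y' => y' a = v)).card :=
      Finset.card_eq_sum_card_fiberwise (fun _ _ => Finset.mem_univ _)
    rw [h1]
    simp_rw [← relab_update ha, ih]
    rw [Finset.sum_const, Finset.card_univ, Finset.card_insert_of_notMem ha, smul_eq_mul,
      pow_succ, mul_comm]

theorem sum_sum_relab (Z : Finset (ι × Bool)) (f : (ι × Bool → ι) → ℝ) :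
    ∑ y, ∑ y' ∈ relab Z y, f y' = (Fintype.card ι : ℝ) ^ Z.card * ∑ y, f y := by
  have h1 : ∑ y, ∑ y' ∈ relab Z y, f y' = ∑ y', ∑ _y ∈ relab Z y', f y' := by
    apply Finset.sum_comm'
    intro y y'
    simp only [Finset.mem_univ, true_and, and_true]
    exact mem_relab_comm
  rw [h1, Finset.mul_sum]
  refine Finset.sum_congr rfl (fun y' _ => ?_)
  rw [Finset.sum_const, card_relab, nsmul_eq_mul]
  push_cast
  ring

/-- `G Z y`: the sum of `β` over all relabellings of the cards of `Z`. -/
noncomputable def gsum (β : (ι × Bool → ι) → ℝ) (Z : Finset (ι × Bool)) (y : ι × Bool → ι) : ℝ :=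
  ∑ y' ∈ relab Z y, β y'

theorem gsum_eq_of_mem (β : (ι × Bool → ι) → ℝ) {Z : Finset (ι × Bool)} {y y' : ι × Bool → ι}
    (h : y' ∈ relab Z y) : gsum β Z y' = gsum β Z y := by
  unfold gsum
  rw [relab_eq_of_mem h]

theorem gsum_empty (β : (ι × Bool → ι) → ℝ) (y : ι × Bool → ι) : gsum β ∅ y = β y := by
  simp [gsum, relab_empty]

theorem gsum_insert (β : (ι × Bool → ι) → ℝ) {Z : Finset (ι × Bool)} {a : ι × Bool}
    (ha : a ∉ Z) (y : ι × Bool → ι) :
    gsum β (insert a Z) y = ∑ v : ι, gsum β Z (Function.update y a v) :=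
  sum_relab_insert ha β y

/-- `∑ y, G Z y ^ 2 = M^|Z| * ∑ y, β y * G Z y`. -/
theorem sum_gsum_sq (β : (ι × Bool → ι) → ℝ) (Z : Finset (ι × Bool)) :
    ∑ y, gsum β Z y ^ 2 = (Fintype.card ι : ℝ) ^ Z.card * ∑ y, β y * gsum β Z y := by
  rw [← sum_sum_relab Z (fun y => β y * gsum β Z y)]
  refine Finset.sum_congr rfl (fun y _ => ?_)
  have h1 : ∑ y' ∈ relab Z y, β y' * gsum β Z y' = ∑ y' ∈ relab Z y, β y' * gsum β Z y :=
    Finset.sum_congr rfl (fun y' hy' => by rw [gsum_eq_of_mem β hy'])
  rw [h1, ← Finset.sum_mul, sq]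
  rfl

/-- `∑ v, f (update y a v)` summed over `y` is `M * ∑ f`. -/
theorem sum_sum_update (a : ι × Bool) (f : (ι × Bool → ι) → ℝ) :
    ∑ y, ∑ v : ι, f (Function.update y a v) = (Fintype.card ι : ℝ) * ∑ y, f y := by
  have h := sum_sum_relab ({a} : Finset (ι × Bool)) f
  rw [Finset.card_singleton, pow_one] at h
  rw [← h]
  refine Finset.sum_congr rfl (fun y _ => ?_)
  have h2 := sum_relab_insert (Z := (∅ : Finset (ι × Bool))) (a := a) (Finset.notMem_empty a) f y
  rw [show insert a (∅ : Finset (ι × Bool)) = {a} from rfl] at h2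
  rw [h2]
  refine Finset.sum_congr rfl (fun v _ => ?_)
  rw [relab_empty, Finset.sum_singleton]

/-- One-card step: `∑ y, G (insert a Z) y ^ 2 ≤ (M - k + |Z| + 1) * (M * ∑ y, G Z y ^ 2)`. -/
theorem sum_gsum_insert_sq_le (W : Finset (ι × Bool)) (β : (ι × Bool → ι) → ℝ)
    (hinj : ∀ y, ¬ Set.InjOn y (W : Set (ι × Bool)) → β y = 0)
    (hkM : W.card ≤ Fintype.card ι)
    {Z : Finset (ι × Bool)} {a : ι × Bool} (ha : a ∉ Z) (haW : a ∈ W) (hZW : Z ⊆ W) :
    ∑ y, gsum β (insert a Z) y ^ 2
      ≤ ((Fintype.card ι - W.card + Z.card + 1 : ℕ) : ℝ) *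
          ((Fintype.card ι : ℝ) * ∑ y, gsum β Z y ^ 2) := by
  classical
  rw [← sum_sum_update a (fun y => gsum β Z y ^ 2), Finset.mul_sum]
  refine Finset.sum_le_sum (fun y _ => ?_)
  set R : Finset (ι × Bool) := W \ insert a Z with hR
  have hRW : ∀ w ∈ R, w ∈ W ∧ w ≠ a ∧ w ∉ Z := by
    intro w hw
    rw [hR, Finset.mem_sdiff, Finset.mem_insert, not_or] at hw
    exact ⟨hw.1, hw.2.1, hw.2.2⟩
  have hsq : ∀ v : ι, 0 ≤ gsum β Z (Function.update y a v) ^ 2 := fun v => sq_nonneg _
  by_cases hI : Set.InjOn y (R : Set (ι × Bool))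
  · set S : Finset ι := univ.filter (fun v => ∀ w ∈ R, y w ≠ v) with hS
    have hvan : ∀ v, v ∉ S → gsum β Z (Function.update y a v) = 0 := by
      intro v hv
      have hv' : ∃ w ∈ R, y w = v := by
        by_contra hcon
        apply hv
        rw [hS, Finset.mem_filter]
        refine ⟨Finset.mem_univ _, fun w hw hwv => hcon ⟨w, hw, hwv⟩⟩
      obtain ⟨w, hwR, hwv⟩ := hv'
      obtain ⟨hwW, hwa, hwZ⟩ := hRW w hwR
      unfold gsum
      apply Finset.sum_eq_zero
      intro y' hy'
      apply hinj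
      intro hI'
      rw [mem_relab] at hy'
      have e1 : y' w = v := by rw [hy' w hwZ, Function.update_of_ne hwa, hwv]
      have e2 : y' a = v := by rw [hy' a ha, Function.update_self]
      exact hwa (hI' (Finset.mem_coe.mpr hwW) (Finset.mem_coe.mpr haW) (e1.trans e2.symm))
    have hsum : ∑ v : ι, gsum β Z (Function.update y a v)
        = ∑ v ∈ S, gsum β Z (Function.update y a v) := by
      symm
      apply Finset.sum_subset (Finset.subset_univ _)
      intro v _ hv
      exact hvan v hv
    have hScard : S.card = Fintype.card ι - W.card + Z.card + 1 := by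
      have hSeq : S = univ \ R.image y := by
        ext v
        simp only [hS, Finset.mem_filter, Finset.mem_univ, true_and, Finset.mem_sdiff,
          Finset.mem_image, not_exists, not_and]
      rw [hSeq, Finset.card_univ_sdiff, Finset.card_image_of_injOn hI]
      have hins : insert a Z ⊆ W := Finset.insert_subset haW hZW
      have hRcard : R.card = W.card - (Z.card + 1) := by
        rw [hR, Finset.card_sdiff_of_subset hins, Finset.card_insert_of_notMem ha]
      have hle : Z.card + 1 ≤ W.card := by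
        have := Finset.card_le_card hins
        rwa [Finset.card_insert_of_notMem ha] at this
      rw [hRcard]
      omega
    rw [gsum_insert β ha y, hsum]
    calc (∑ v ∈ S, gsum β Z (Function.update y a v)) ^ 2
        ≤ (S.card : ℝ) * ∑ v ∈ S, gsum β Z (Function.update y a v) ^ 2 :=
          sq_sum_le_card_mul_sum_sq
      _ ≤ (S.card : ℝ) * ∑ v : ι, gsum β Z (Function.update y a v) ^ 2 := by
          apply mul_le_mul_of_nonneg_left _ (Nat.cast_nonneg _)
          exact Finset.sum_le_univ_sum_of_nonneg hsq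
      _ = _ := by rw [hScard]
  · have hzero : gsum β (insert a Z) y = 0 := by
      unfold gsum
      apply Finset.sum_eq_zero
      intro y' hy'
      apply hinj
      intro hI'
      apply hI
      intro w hw w' hw' hww'
      rw [mem_relab] at hy'
      obtain ⟨hwW, hwa, hwZ⟩ := hRW w (Finset.mem_coe.mp hw)
      obtain ⟨hwW', hwa', hwZ'⟩ := hRW w' (Finset.mem_coe.mp hw')
      have e1 : y' w = y w := hy' w (by simp [hwa, hwZ])
      have e2 : y' w' = y w' := hy' w' (by simp [hwa', hwZ'])
      exact hI' (Finset.mem_coe.mpr hwW) (Finset.mem_coe.mpr hwW') (by rw [e1, e2, hww'])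
    rw [hzero]
    have : (0 : ℝ) ≤ ∑ v : ι, gsum β Z (Function.update y a v) ^ 2 :=
      Finset.sum_nonneg (fun v _ => hsq v)
    have h2 : (0 : ℝ) ≤ ((Fintype.card ι - W.card + Z.card + 1 : ℕ) : ℝ) := Nat.cast_nonneg _
    simp only [ne_eq, OfNat.ofNat_ne_zero, not_false_eq_true, zero_pow]
    exact mul_nonneg h2 this

/-- The normalised squared fibre sums (`= ‖EE_{W \ Z} β‖²`). -/
noncomputable def qq (W : Finset (ι × Bool)) (β : (ι × Bool → ι) → ℝ) (Z : Finset (ι × Bool)) :
    ℝ :=
  (∑ y, gsum β Z y ^ 2) /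
    ((Fintype.card ι : ℝ) ^ Z.card *
      ((Fintype.card ι - W.card + Z.card).descFactorial Z.card : ℝ))

theorem qq_nonneg (W : Finset (ι × Bool)) (β : (ι × Bool → ι) → ℝ) (Z : Finset (ι × Bool)) :
    0 ≤ qq W β Z := by
  unfold qq
  apply div_nonneg (Finset.sum_nonneg (fun y _ => sq_nonneg _))
  positivity

theorem qq_empty (W : Finset (ι × Bool)) (β : (ι × Bool → ι) → ℝ) :
    qq W β ∅ = ∑ y, β y ^ 2 := by
  simp [qq, gsum_empty]

theorem qq_insert_le (W : Finset (ι × Bool)) (β : (ι × Bool → ι) → ℝ)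
    (hinj : ∀ y, ¬ Set.InjOn y (W : Set (ι × Bool)) → β y = 0)
    (hkM : W.card ≤ Fintype.card ι) (hM : 0 < Fintype.card ι)
    {Z : Finset (ι × Bool)} {a : ι × Bool} (ha : a ∉ Z) (haW : a ∈ W) (hZW : Z ⊆ W) :
    qq W β (insert a Z) ≤ qq W β Z := by
  have hstep := sum_gsum_insert_sq_le W β hinj hkM ha haW hZW
  unfold qq
  rw [Finset.card_insert_of_notMem ha]
  have hD : (Fintype.card ι - W.card + (Z.card + 1)).descFactorial (Z.card + 1)
      = (Fintype.card ι - W.card + Z.card + 1) *
          (Fintype.card ι - W.card + Z.card).descFactorial Z.card := by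
    have : Fintype.card ι - W.card + (Z.card + 1) = (Fintype.card ι - W.card + Z.card) + 1 := by
      omega
    rw [this, Nat.succ_descFactorial_succ]
  rw [hD, Nat.cast_mul]
  have hDpos : (0 : ℝ) < ((Fintype.card ι - W.card + Z.card).descFactorial Z.card : ℝ) := by
    exact_mod_cast Nat.descFactorial_pos.mpr (by omega)
  have hMpos : (0 : ℝ) < (Fintype.card ι : ℝ) := by exact_mod_cast hM
  have hcpos : (0 : ℝ) < ((Fintype.card ι - W.card + Z.card + 1 : ℕ) : ℝ) := by
    exact_mod_cast Nat.succ_pos _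
  rw [div_le_div_iff₀ (by positivity) (by positivity)]
  have h1 := mul_le_mul_of_nonneg_right hstep
    (by positivity : (0 : ℝ) ≤ (Fintype.card ι : ℝ) ^ Z.card *
      ((Fintype.card ι - W.card + Z.card).descFactorial Z.card : ℝ))
  calc _ ≤ _ := h1
    _ = _ := by ring

theorem qq_anti (W : Finset (ι × Bool)) (β : (ι × Bool → ι) → ℝ)
    (hinj : ∀ y, ¬ Set.InjOn y (W : Set (ι × Bool)) → β y = 0)
    (hkM : W.card ≤ Fintype.card ι) (hM : 0 < Fintype.card ι) :
    ∀ Z Z' : Finset (ι × Bool), Z ⊆ Z' → Z' ⊆ W → qq W β Z' ≤ qq W β Z := by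
  classical
  intro Z Z' hZZ' hZ'W
  have key : ∀ T : Finset (ι × Bool), T ⊆ Z' \ Z → qq W β (Z ∪ T) ≤ qq W β Z := by
    intro T
    induction T using Finset.induction_on with
    | empty => intro _; simp
    | insert a T haT ih =>
      intro hT
      have hT' : T ⊆ Z' \ Z := (Finset.subset_insert a T).trans hT
      have haZ' : a ∈ Z' \ Z := hT (Finset.mem_insert_self a T)
      rw [Finset.mem_sdiff] at haZ'
      have hunion : Z ∪ insert a T = insert a (Z ∪ T) := Finset.union_insert a Z T
      rw [hunion]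
      refine (qq_insert_le W β hinj hkM hM (?_ : a ∉ Z ∪ T) (hZ'W haZ'.1) ?_).trans (ih hT')
      · simp [haZ'.2, haT]
      · intro x hx
        rcases Finset.mem_union.mp hx with h | h
        · exact hZ'W (hZZ' h)
        · exact hZ'W (Finset.mem_sdiff.mp (hT' h)).1
  have h := key (Z' \ Z) (Finset.Subset.refl _)
  rwa [Finset.union_sdiff_of_subset hZZ'] at h

/-- **Leaf (Q).** -/
theorem qStmt : QStmt ι := by
  intro W β hk2 hinj _hdep
  classical
  by_cases hkM : W.card ≤ Fintype.card ι
  · have hMpos : 0 < Fintype.card ι := by omega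
    have hmain : ∑ y, β y * theta W β y
        = (∑ Z ∈ W.powerset,
            (-1 : ℝ) ^ Z.card * gam (Fintype.card ι) W.card Z.card * qq W β Z) / 2 ^ W.card := by
      unfold theta
      simp_rw [← mul_div_assoc]
      rw [← Finset.sum_div]
      congr 1
      have hswap : ∑ y, β y * ∑ Z ∈ W.powerset,
            ((-1 : ℝ) ^ Z.card / ((Fintype.card ι).descFactorial Z.card : ℝ) *
              ∑ y' ∈ relab Z y, β y')
          = ∑ Z ∈ W.powerset,
            (-1 : ℝ) ^ Z.card / ((Fintype.card ι).descFactorial Z.card : ℝ) *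
              ∑ y, β y * gsum β Z y := by
        have hy : ∀ y, β y * ∑ Z ∈ W.powerset,
              ((-1 : ℝ) ^ Z.card / ((Fintype.card ι).descFactorial Z.card : ℝ) *
                ∑ y' ∈ relab Z y, β y')
            = ∑ Z ∈ W.powerset,
              (-1 : ℝ) ^ Z.card / ((Fintype.card ι).descFactorial Z.card : ℝ) *
                (β y * gsum β Z y) := by
          intro y
          rw [Finset.mul_sum]
          refine Finset.sum_congr rfl (fun Z _ => ?_)
          unfold gsum
          ring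
        rw [Finset.sum_congr rfl (fun y _ => hy y), Finset.sum_comm]
        refine Finset.sum_congr rfl (fun Z _ => ?_)
        rw [Finset.mul_sum]
      rw [hswap]
      refine Finset.sum_congr rfl (fun Z hZ => ?_)
      have hZW := Finset.mem_powerset.mp hZ
      have hj : Z.card ≤ W.card := Finset.card_le_card hZW
      have h2 := sum_gsum_sq β Z
      unfold qq gam
      rw [h2]
      have hD1 : ((Fintype.card ι - W.card + Z.card).descFactorial Z.card : ℝ) ≠ 0 := by
        exact_mod_cast (Nat.descFactorial_pos.mpr (by omega)).ne'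
      have hD2 : ((Fintype.card ι).descFactorial Z.card : ℝ) ≠ 0 := by
        exact_mod_cast (Nat.descFactorial_pos.mpr (by omega)).ne'
      have hMne : ((Fintype.card ι : ℝ)) ≠ 0 := by exact_mod_cast hMpos.ne'
      field_simp
    rw [hmain]
    have hB := lemmaB_gam_finset W (Fintype.card ι) hk2 hkM (qq W β) (∑ y, β y ^ 2)
      (fun Z _ => qq_nonneg W β Z)
      (fun Z hZ => by
        rw [← qq_empty W β]
        exact qq_anti W β hinj hkM hMpos ∅ Z (Finset.empty_subset _) hZ)
      (qq_anti W β hinj hkM hMpos)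
    calc _ ≤ (∑ y, β y ^ 2) / 4 := hB
      _ = 1 / 4 * ∑ y, β y ^ 2 := by ring
  · have hβ : ∀ y, β y = 0 := by
      intro y
      apply hinj
      intro hI
      apply hkM
      have h := Finset.card_le_card_of_injOn y (fun _ _ => Finset.mem_univ _) hI
      simpa using h
    simp [hβ]

end Crest.Agent.Helper75.Shuffle
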